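import Vale.Agent.P087.Assembly
import Vale.Agent.P087.Block1.Trace
import Vale.Agent.P087.Block1.Recursion
import Vale.Agent.P087.ConjPin
import Vale.Agent.P087.ChiStar
import Vale.Agent.P087.ChiUpperPin
import Vale.Agent.P087.ChiLowerPin
import Vale.Agent.P087.Decode
import Vale.Agent.P087.Freeness
import Vale.Agent.P087.Group
import Vale.Agent.P087.Moment
import Vale.Agent.P087.Norm

namespace Vale.Agent.Results.P087.EntropiesDiffer

open Vale.Agent.P087

/-- Voiculescu's unification question has a negative answer: some tuple in a tracial von Neumann
algebra has `-∞ < χ < χ*`. -/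
theorem result : Vale.Agent.P087.EntropiesDiffer :=
  entropiesDiffer_of tracePin_holds selfAdjPin_holds freenessPin_holds
    (chiStarPin_of conjPin_holds) chiUpperPin_holds DecodePin_holds GroupPin_holds
    (chiLowerPin_of momentPin_holds NormPin_holds recursionPin_holds)

end Vale.Agent.Results.P087.EntropiesDiffer
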